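import Mathlib

/-!
# P207, project SPH: areas of spheres and Lyapunov exponents, the abstract part

`X` is the frame bundle, `Φ` the frame flow, `U` the unstable Riccati tensor, `V = U ∘ flip`,
`S = U + V`, `K` minus the Jacobi operator: `U' = K - U²`, `V' = V² - K`.
Every row below is a `Prop`; a hand proves `theorem Vale.Agent.P207.SPH.<name> : <Name>Stmt`.
-/

open Matrix MeasureTheory Set Filter Topology

noncomputable section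

namespace Vale.Agent.P207.SPH

/-- square matrices -/
abbrev Mt (m : ℕ) : Type := Matrix (Fin m) (Fin m) ℝ

/-- entrywise derivative -/
def MD {k l : ℕ} (M : ℝ → Matrix (Fin k) (Fin l) ℝ) (M' : Matrix (Fin k) (Fin l) ℝ) (t : ℝ) :
    Prop :=
  ∀ i j, HasDerivAt (fun s => M s i j) (M' i j) t

/-- the data -/
structure Sys (m : ℕ) (X : Type) [TopologicalSpace X] where
  /-- the flow -/
  Φ : ℝ → X → X
  zero : ∀ f, Φ 0 f = f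
  add : ∀ s t f, Φ s (Φ t f) = Φ (s + t) f
  cont : Continuous fun q : ℝ × X => Φ q.1 q.2
  /-- unstable tensor -/
  U : X → Mt m
  /-- flipped unstable tensor -/
  V : X → Mt m
  /-- minus the Jacobi operator -/
  K : X → Mt m
  cU : Continuous U
  cV : Continuous V
  cK : Continuous K
  sU : ∀ f, (U f)ᵀ = U f
  sV : ∀ f, (V f)ᵀ = V f
  /-- lower bound -/
  a : ℝ
  /-- upper bound -/
  b : ℝ
  a_pos : 0 < a
  loU : ∀ f x, a * (x ⬝ᵥ x) ≤ x ⬝ᵥ (U f *ᵥ x)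
  loV : ∀ f x, a * (x ⬝ᵥ x) ≤ x ⬝ᵥ (V f *ᵥ x)
  hiU : ∀ f x, x ⬝ᵥ (U f *ᵥ x) ≤ b * (x ⬝ᵥ x)
  hiV : ∀ f x, x ⬝ᵥ (V f *ᵥ x) ≤ b * (x ⬝ᵥ x)
  dU : ∀ f t, MD (fun s => U (Φ s f)) (K (Φ t f) - U (Φ t f) * U (Φ t f)) t
  dV : ∀ f t, MD (fun s => V (Φ s f)) (V (Φ t f) * V (Φ t f) - K (Φ t f)) t

variable {m : ℕ} {X : Type} [TopologicalSpace X]

/-- `S = U + V` -/
def Sys.S (D : Sys m X) (f : X) : Mt m := D.U f + D.V f

/-- the fundamental solution of `Y' = B Y` along the flow -/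
structure Fund (D : Sys m X) (B : X → Mt m) (Y : ℝ → X → Mt m) : Prop where
  zero : ∀ f, Y 0 f = 1
  der : ∀ f t, MD (fun s => Y s f) (B (D.Φ t f) * Y t f) t
  cont : Continuous fun q : ℝ × X => Y q.1 q.2
  coc : ∀ f s t, Y (s + t) f = Y s (D.Φ t f) * Y t f
  det : ∀ f t, (Y t f).det = Real.exp (∫ s in (0 : ℝ)..t, (B (D.Φ s f)).trace)

/-- the Jacobi tensor with `A(0) = 0`, `A'(0) = 1` -/
def Sys.A (D : Sys m X) (Y Z : ℝ → X → Mt m) (t : ℝ) (f : X) : Mt m :=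
  (Y t f - Z t f) * (D.S f)⁻¹

/-- its derivative -/
def Sys.A' (D : Sys m X) (Y Z : ℝ → X → Mt m) (t : ℝ) (f : X) : Mt m :=
  (D.U (D.Φ t f) * Y t f + D.V (D.Φ t f) * Z t f) * (D.S f)⁻¹

/-- product of the `k` largest eigenvalues -/
def topV (k : ℕ) (G : Mt m) : ℝ :=
  sSup {x | ∃ W : Matrix (Fin m) (Fin k) ℝ, Wᵀ * W = 1 ∧ x = (Wᵀ * G * W).det}

/-- sum of the `k` largest eigenvalues -/
def sg (k : ℕ) (S : Mt m) : ℝ :=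
  sSup {x | ∃ W : Matrix (Fin m) (Fin k) ℝ, Wᵀ * W = 1 ∧ x = (Wᵀ * S * W).trace}

/-- growth of the squares of the `k`-volumes in the `S`-metric -/
def Sys.N (D : Sys m X) (Y : ℝ → X → Mt m) (k : ℕ) (T : ℝ) (f : X) : ℝ :=
  sSup {x | ∃ W : Matrix (Fin m) (Fin k) ℝ, Wᵀ * D.S f * W = 1 ∧
    x = (Wᵀ * ((Y T f)ᵀ * D.S (D.Φ T f) * Y T f) * W).det}

/-- sum of the first `k` entries -/
def psum {m : ℕ} (k : ℕ) (e : Fin m → ℝ) : ℝ := ∑ i : Fin m, if (i : ℕ) < k then e i else 0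

/-- product of the first `k` entries -/
def pprod {m : ℕ} (k : ℕ) (e : Fin m → ℝ) : ℝ := ∏ i : Fin m, if (i : ℕ) < k then e i else 1

/-! ### Rows -/

/-- R1 -/
def FundStmt : Prop := ∀ (m : ℕ) (X : Type) [TopologicalSpace X] [CompactSpace X] (D : Sys m X)
  (B : X → Mt m), Continuous B → ∃ Y, Fund D B Y

/-- R2 -/
def GrowStmt : Prop := ∀ (m : ℕ) (X : Type) [TopologicalSpace X] [CompactSpace X] (D : Sys m X)
  (Y Z : ℝ → X → Mt m), Fund D D.U Y → Fund D (fun f => -D.V f) Z → ∀ t, 0 ≤ t → ∀ f x,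
    Real.exp (2 * D.a * t) * (x ⬝ᵥ x) ≤ (Y t f *ᵥ x) ⬝ᵥ (Y t f *ᵥ x) ∧
    (Y t f *ᵥ x) ⬝ᵥ (Y t f *ᵥ x) ≤ Real.exp (2 * D.b * t) * (x ⬝ᵥ x) ∧
    (Z t f *ᵥ x) ⬝ᵥ (Z t f *ᵥ x) ≤ Real.exp (-(2 * D.a * t)) * (x ⬝ᵥ x)

/-- R3 -/
def JacStmt : Prop := ∀ (m : ℕ) (X : Type) [TopologicalSpace X] [CompactSpace X] (D : Sys m X)
  (Y Z : ℝ → X → Mt m), Fund D D.U Y → Fund D (fun f => -D.V f) Z → ∀ f,
    D.A Y Z 0 f = 0 ∧ D.A' Y Z 0 f = 1 ∧ ∀ t, MD (fun s => D.A Y Z s f) (D.A' Y Z t f) t ∧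
      MD (fun s => D.A' Y Z s f) (D.K (D.Φ t f) * D.A Y Z t f) t

/-- R4: asymptotics of the area density -/
def AreaStmt : Prop := ∀ (m : ℕ) (X : Type) [TopologicalSpace X] [CompactSpace X] (D : Sys m X)
  (Y Z : ℝ → X → Mt m), Fund D D.U Y → Fund D (fun f => -D.V f) Z → ∃ C T₀ : ℝ, 0 ≤ C ∧
    ∀ T, T₀ ≤ T → ∀ f, 0 < (D.A Y Z T f).det ∧
      |Real.log (D.A Y Z T f).det - ((∫ s in (0 : ℝ)..T, (D.U (D.Φ s f)).trace)
        - Real.log (D.S f).det)| ≤ C * Real.exp (-(2 * D.a * T))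

/-- R5: `topV` of `Aᵀ A` and `N` are comparable -/
def CompStmt : Prop := ∀ (m : ℕ) (X : Type) [TopologicalSpace X] [CompactSpace X] (D : Sys m X)
  (Y Z : ℝ → X → Mt m), Fund D D.U Y → Fund D (fun f => -D.V f) Z → ∃ C T₀ : ℝ, 0 < C ∧
    ∀ T, T₀ ≤ T → ∀ f, ∀ k ≤ m, 0 < D.N Y k T f ∧
      C⁻¹ * D.N Y k T f ≤ topV k ((D.A Y Z T f)ᵀ * D.A Y Z T f) ∧
      topV k ((D.A Y Z T f)ᵀ * D.A Y Z T f) ≤ C * D.N Y k T f

/-- R6: the function `N` (attained, continuous, submultiplicative, `k = m`) -/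
def NStmt : Prop := ∀ (m : ℕ) (X : Type) [TopologicalSpace X] [CompactSpace X] (D : Sys m X)
  (Y : ℝ → X → Mt m), Fund D D.U Y → ∀ k ≤ m,
    (∀ T f, ∃ W : Matrix (Fin m) (Fin k) ℝ, Wᵀ * D.S f * W = 1 ∧
      D.N Y k T f = (Wᵀ * ((Y T f)ᵀ * D.S (D.Φ T f) * Y T f) * W).det ∧
      ∀ W' : Matrix (Fin m) (Fin k) ℝ, W'ᵀ * D.S f * W' = 1 →
        (W'ᵀ * ((Y T f)ᵀ * D.S (D.Φ T f) * Y T f) * W').det ≤ D.N Y k T f) ∧
    (∀ T f, 0 < D.N Y k T f) ∧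
    (∀ T, Continuous fun f => D.N Y k T f) ∧
    (∀ s t f, D.N Y k (s + t) f ≤ D.N Y k s (D.Φ t f) * D.N Y k t f) ∧
    ∀ T f, D.N Y m T f = Real.exp (∫ s in (0 : ℝ)..T, (D.S (D.Φ s f)).trace)

/-- R7: eigenvalues. `sg` and `topV` are partial sums and products of the ordered eigenvalues -/
def EigStmt : Prop := ∀ (m : ℕ) (S : Mt m), Sᵀ = S → ∃ e : Fin m → ℝ, Antitone e ∧
  S.det = ∏ i, e i ∧ S.trace = ∑ i, e i ∧ (∀ c : ℝ, (∀ x, c * (x ⬝ᵥ x) ≤ x ⬝ᵥ (S *ᵥ x)) → ∀ i, c ≤ e i) ∧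
  (∀ k ≤ m, sg k S = psum k e) ∧
  ((∀ x, 0 ≤ x ⬝ᵥ (S *ᵥ x)) → ∀ k ≤ m, topV k S = pprod k e)

/-- R8: `sg` and `topV` are continuous, and the Ky Fan bound in the `S`-metric -/
def KyStmt : Prop := ∀ (m k : ℕ), k ≤ m → Continuous (fun S : Mt m => sg k S) ∧
  Continuous (fun S : Mt m => topV k S) ∧
  ∀ (S : Mt m), Sᵀ = S → ∀ a : ℝ, 0 < a → (∀ x, a * (x ⬝ᵥ x) ≤ x ⬝ᵥ (S *ᵥ x)) →
    ∀ W : Matrix (Fin m) (Fin k) ℝ, Wᵀ * S * W = 1 → (Wᵀ * (S * S) * W).trace ≤ sg k S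

/-- R9: upper bound of the growth -/
def UpStmt : Prop := ∀ (m : ℕ) (X : Type) [TopologicalSpace X] [CompactSpace X] (D : Sys m X)
  (Y : ℝ → X → Mt m), Fund D D.U Y → ∀ k ≤ m, ∀ T, 0 ≤ T → ∀ f,
    D.N Y k T f ≤ Real.exp (∫ s in (0 : ℝ)..T, sg k (D.S (D.Φ s f)))

/-- R10: equality at all times: at time `0` the maximal planes are top eigenspaces, and they are
invariant: for each `f`, `T` there is `W` such that the derivative of the logarithm of the square of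
the volume is maximal on `[0, T]` -/
def EqStmt : Prop := ∀ (m : ℕ) (X : Type) [TopologicalSpace X] [CompactSpace X] (D : Sys m X)
  (Y : ℝ → X → Mt m), Fund D D.U Y → ∀ k ≤ m, ∀ T, 0 ≤ T → ∀ f,
    D.N Y k T f = Real.exp (∫ s in (0 : ℝ)..T, sg k (D.S (D.Φ s f))) →
    ∃ W : Matrix (Fin m) (Fin k) ℝ, Wᵀ * D.S f * W = 1 ∧ ∀ t ∈ Icc (0 : ℝ) T,
      ∃ Q : Matrix (Fin k) (Fin k) ℝ, IsUnit Q ∧
        (Y t f * W * Q)ᵀ * D.S (D.Φ t f) * (Y t f * W * Q) = 1 ∧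
        ((Y t f * W * Q)ᵀ * (D.S (D.Φ t f) * D.S (D.Φ t f)) * (Y t f * W * Q)).trace =
          sg k (D.S (D.Φ t f))

/-- R11: rigidity of the equality case -/
def RigStmt : Prop := ∀ (m : ℕ) (X : Type) [TopologicalSpace X] [CompactSpace X] (D : Sys m X)
  (Y : ℝ → X → Mt m), Fund D D.U Y → ∀ c : ℕ → ℝ, (∀ k ≤ m, ∀ f, sg k (D.S f) = c k) →
    (∀ k ≤ m, ∀ T, 0 ≤ T → ∀ f,
      D.N Y k T f = Real.exp (∫ s in (0 : ℝ)..T, sg k (D.S (D.Φ s f)))) →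
    ∀ f, D.U f = D.V f

/-- R12: if `U = V` everywhere then everything is constant along the orbits -/
def ParStmt : Prop := ∀ (m : ℕ) (X : Type) [TopologicalSpace X] [CompactSpace X] (D : Sys m X),
  (∀ f, D.U f = D.V f) → ∀ t f, D.U (D.Φ t f) = D.U f ∧ D.K (D.Φ t f) = D.K f

/-- R13: the converse -/
def ConvStmt : Prop := ∀ (m : ℕ) (X : Type) [TopologicalSpace X] [CompactSpace X] (D : Sys m X),
  (∀ t f, D.K (D.Φ t f) = D.K f) → (∀ f, D.U f = D.V f) ∧ (∀ t f, D.U (D.Φ t f) = D.U f) ∧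
    ∀ Y : ℝ → X → Mt m, Fund D D.U Y → ∀ k ≤ m, ∀ T, 0 ≤ T → ∀ f,
      Real.exp (T * sg k (D.S f)) ≤ D.N Y k T f

/-- R14: Abel summation and Jensen's inequality -/
def JensenStmt : Prop := ∀ (m : ℕ) (X : Type) [TopologicalSpace X] [CompactSpace X]
  [MeasurableSpace X] [BorelSpace X] (μ : Measure X) [IsProbabilityMeasure μ]
  [μ.IsOpenPosMeasure] (e : Fin m → X → ℝ) (χ : Fin m → ℝ), (∀ i, Continuous (e i)) →
    (∀ i f, 0 < e i f) → Antitone χ → (∀ i, 0 < χ i) →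
    (∀ k ≤ m, 2 * psum k χ ≤ ∫ f, psum k (fun i => e i f) ∂μ) →
    2 * ∑ i, χ i = ∫ f, (∑ i, e i f) ∂μ →
    ∫ f, (∑ i, Real.log (e i f)) ∂μ ≤ ∑ i, Real.log (2 * χ i) ∧
    (∑ i, Real.log (2 * χ i) ≤ ∫ f, (∑ i, Real.log (e i f)) ∂μ → ∀ i f, e i f = 2 * χ i)

/-- R15: the exponents -/
def LyapStmt : Prop := ∀ (m : ℕ) (X : Type) [TopologicalSpace X] [CompactSpace X]
  [MeasurableSpace X] [BorelSpace X] (μ : Measure X) [IsProbabilityMeasure μ] (D : Sys m X)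
  (Y Z : ℝ → X → Mt m), (∀ t, MeasurePreserving (D.Φ t) μ μ) → Fund D D.U Y →
    Fund D (fun f => -D.V f) Z → ∃ χ : Fin m → ℝ, Antitone χ ∧ (∀ i, D.a ≤ χ i) ∧
      (∀ k ≤ m, Tendsto (fun T : ℝ => (∫ f, Real.log (topV k ((D.A Y Z T f)ᵀ * D.A Y Z T f)) ∂μ) /
        (2 * T)) atTop (𝓝 (psum k χ))) ∧
      (∀ k ≤ m, ∀ T, 0 < T → 2 * T * psum k χ ≤
        ∫ f, Real.log (D.N Y k T f) ∂μ) ∧
      (∀ k ≤ m, Tendsto (fun T : ℝ => (∫ f, Real.log (D.N Y k T f) ∂μ) / (2 * T)) atTop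
        (𝓝 (psum k χ))) ∧
      2 * ∑ i, χ i = ∫ f, (D.S f).trace ∂μ

/-- R16: the abstract theorem (assembly of all the rows) -/
def MainStmt : Prop := ∀ (m : ℕ) (X : Type) [TopologicalSpace X] [CompactSpace X]
  [MeasurableSpace X] [BorelSpace X] (μ : Measure X) [IsProbabilityMeasure μ]
  [μ.IsOpenPosMeasure] (D : Sys m X) (Y Z : ℝ → X → Mt m),
    (∀ t, MeasurePreserving (D.Φ t) μ μ) →
    ∫ f, (D.V f).trace ∂μ = ∫ f, (D.U f).trace ∂μ →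
    Fund D D.U Y → Fund D (fun f => -D.V f) Z → ∃ χ : Fin m → ℝ, Antitone χ ∧ (∀ i, 0 < χ i) ∧
      ∑ i, χ i = ∫ f, (D.U f).trace ∂μ ∧
      (∀ k ≤ m, Tendsto (fun T : ℝ => (∫ f, Real.log (topV k ((D.A Y Z T f)ᵀ * D.A Y Z T f)) ∂μ) /
        (2 * T)) atTop (𝓝 (psum k χ))) ∧
      (∀ c < ∏ i, (2 * χ i)⁻¹, ∀ᶠ T in atTop,
        c * Real.exp (T * ∑ i, χ i) ≤ ∫ f, (D.A Y Z T f).det ∂μ) ∧
      ((¬ ∀ t f, D.K (D.Φ t f) = D.K f) → ∃ c, ∏ i, (2 * χ i)⁻¹ < c ∧ ∀ᶠ T in atTop,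
        c * Real.exp (T * ∑ i, χ i) ≤ ∫ f, (D.A Y Z T f).det ∂μ) ∧
      ((∀ t f, D.K (D.Φ t f) = D.K f) →
        (∃ c : ℕ → ℝ, ∀ k ≤ m, ∀ f, sg k (D.S f) = c k) →
        Tendsto (fun T : ℝ => Real.exp (-(T * ∑ i, χ i)) * ∫ f, (D.A Y Z T f).det ∂μ) atTop
          (𝓝 (∏ i, (2 * χ i)⁻¹)))

end Vale.Agent.P207.SPH
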