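import Vale.Agent.P207.SPH.Defs
import Vale.Agent.P207.N4.Geo.MDat
import Vale.Agent.P207.N4.H248.JFrame
import Vale.Agent.P207.H582.FinM
import Vale.Agent.P207.Bridge

/-!
# P207, project SPH: the geometric rows
-/

open scoped Manifold ContDiff ENNReal Topology Matrix
open Bundle MeasureTheory Set Filter

set_option maxSynthPendingDepth 3

noncomputable section

namespace Vale.Agent.P207.SPH

open Vale.Agent.P255 (RMetric innerAt coefIn Gam Riem IsGeo IsJac fieldIn)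
open Vale.Agent.P207 Vale.Agent.P207.Q Vale.Agent.P207.Q.H130

/-- G1: the abstract system of a negatively curved metric, with its invariant measure -/
def SysGeoStmt : Prop := ∀ (m : ℕ) (_ : 2 ≤ m) (M : Type) [TopologicalSpace M]
  [ChartedSpace (EV (m + 1)) M] [IsManifold 𝓘(ℝ, EV (m + 1)) ∞ M] [CompactSpace M] [T2Space M]
  [ConnectedSpace M] [MeasurableSpace M] [BorelSpace M] (g : RMetric (EV (m + 1)) M),
  NegCurvature g → ∀ (φ : ℝ → UT g → UT g) (μ : Measure M) (ν : Measure (UT g)),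
  IsGeoFlow g φ → IsRiemVol g μ → IsLiouville g μ ν →
  CompactSpace (Fr g) ∧ ∃ (D : Sys m (Fr g)) (mP : Measure (Fr g)),
    IsHorFlow g (Pi.single 0 1) D.Φ ∧ (∀ f, D.K f = Km g f) ∧ (∀ t f, φ t (f.ut 0) = (D.Φ t f).ut 0) ∧
    (∀ p : UT g, ∃ f : Fr g, f.ut 0 = p) ∧
    IsProbabilityMeasure mP ∧ mP.IsOpenPosMeasure ∧ (∀ t, MeasurePreserving (D.Φ t) mP mP) ∧
    MeasurePreserving (fun f : Fr g => f.ut 0) mP ν ∧
    ∫ f, (D.V f).trace ∂mP = ∫ f, (D.U f).trace ∂mP ∧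
    (∀ k ≤ m, (∀ t f, sg k (D.S (D.Φ t f)) = sg k (D.S f)) → ∃ c, ∀ f, sg k (D.S f) = c) ∧
    (ksEntropy ν (φ 1) ≤ ENNReal.ofReal (∫ f, (D.U f).trace ∂mP)) ∧
    (ENNReal.ofReal (∫ f, (D.U f).trace ∂mP) ≤ topEntropy (φ 1))

/-- the field with components `A c` along the geodesic -/
def cF {m : ℕ} {M : Type} [TopologicalSpace M] [ChartedSpace (EV (m + 1)) M]
    [IsManifold 𝓘(ℝ, EV (m + 1)) ∞ M] {g : RMetric (EV (m + 1)) M} (D : Sys m (Fr g))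
    (Y Z : ℝ → Fr g → Mt m) (f : Fr g) (c : Fin m → ℝ) :
    ∀ t, TangentSpace 𝓘(ℝ, EV (m + 1)) (D.Φ t f).pt :=
  N4.H248J.Jf D.Φ f (fun t => D.A Y Z t f *ᵥ c)

/-- G2: the columns of `A` and their combinations are Jacobi fields -/
def JacGeoStmt : Prop := ∀ (m : ℕ) (_ : 2 ≤ m) (M : Type) [TopologicalSpace M]
  [ChartedSpace (EV (m + 1)) M] [IsManifold 𝓘(ℝ, EV (m + 1)) ∞ M] [CompactSpace M] [T2Space M]
  (g : RMetric (EV (m + 1)) M) (D : Sys m (Fr g)) (Y Z : ℝ → Fr g → Mt m),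
  IsHorFlow g (Pi.single 0 1) D.Φ → (∀ f, D.K f = Km g f) → CompactSpace (Fr g) →
  Fund D D.U Y → Fund D (fun f => -D.V f) Z → ∀ f : Fr g,
    (∀ c : Fin m → ℝ, IsJac g (fun t => (D.Φ t f).pt) (cF D Y Z f c) ∧ cF D Y Z f c 0 = 0 ∧
      deriv (fieldIn (fun t => (D.Φ t f).pt) (cF D Y Z f c) (D.Φ 0 f).pt) 0 =
        mfderiv 𝓘(ℝ, EV (m + 1)) 𝓘(ℝ, EV (m + 1)) (chartAt (EV (m + 1)) (D.Φ 0 f).pt)
          (D.Φ 0 f).pt (∑ i, c i • (D.Φ 0 f).e i.succ : EV (m + 1))) ∧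
    ∀ (c c' : Fin m → ℝ) (T : ℝ), innerAt g (D.Φ T f).pt (cF D Y Z f c T) (cF D Y Z f c' T) =
      (D.A Y Z T f *ᵥ c) ⬝ᵥ (D.A Y Z T f *ᵥ c')

/-- G3: local symmetry in frames -/
def LocGeoStmt : Prop := ∀ (m : ℕ) (_ : 2 ≤ m) (M : Type) [TopologicalSpace M]
  [ChartedSpace (EV (m + 1)) M] [IsManifold 𝓘(ℝ, EV (m + 1)) ∞ M] [CompactSpace M] [T2Space M]
  (g : RMetric (EV (m + 1)) M) (Φ : ℝ → Fr g → Fr g), IsHorFlow g (Pi.single 0 1) Φ →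
  ((∀ t f, Km g (Φ t f) = Km g f) ↔ LocSymmetric g)

/-- G5: Jacobi fields with the same initial values are equal -/
def UniqGeoStmt : Prop := ∀ (m : ℕ) (_ : 2 ≤ m) (M : Type) [TopologicalSpace M]
  [ChartedSpace (EV (m + 1)) M] [IsManifold 𝓘(ℝ, EV (m + 1)) ∞ M] [CompactSpace M] [T2Space M]
  (g : RMetric (EV (m + 1)) M) (Φ : ℝ → Fr g → Fr g), IsHorFlow g (Pi.single 0 1) Φ →
  ∀ (f : Fr g) (J J' : ∀ t, TangentSpace 𝓘(ℝ, EV (m + 1)) (Φ t f).pt),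
    IsJac g (fun t => (Φ t f).pt) J → IsJac g (fun t => (Φ t f).pt) J' → J 0 = 0 → J' 0 = 0 →
    deriv (fieldIn (fun t => (Φ t f).pt) J (Φ 0 f).pt) 0 =
      deriv (fieldIn (fun t => (Φ t f).pt) J' (Φ 0 f).pt) 0 → ∀ t, J t = J' t

end Vale.Agent.P207.SPH
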