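import Vale.Agent.P207.SPH.Pub
import Vale.Agent.P207.H118.EDefs

/-!
# P207: exponents, Ricci curvature and the geometric mean of the area density
-/

open scoped Manifold ContDiff ENNReal
open Bundle MeasureTheory Set Filter Topology

noncomputable section

namespace Vale.Agent.P207F

open Vale.Agent.P255 (RMetric innerAt coefIn Gam Riem IsGeo IsJac fieldIn)

section

variable {n : ℕ} {M : Type} [TopologicalSpace M] [ChartedSpace (EV n) M]
  [IsManifold 𝓘(ℝ, EV n) ∞ M] [MeasurableSpace M]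

/-- Exponents and Ricci curvature: `∑ χ i² ≤ -∫ Ric(v,v)`, with equality exactly for the locally
symmetric metrics. -/
def RicciSquare (g : RMetric (EV n) M) (χ : Fin (n - 1) → ℝ) : Prop :=
  ∑ i, χ i ^ 2 ≤ -∫ v, ricUT g v ∂(liou (stdB n) g) ∧
  (LocSymmetric g ↔ ∑ i, χ i ^ 2 = -∫ v, ricUT g v ∂(liou (stdB n) g))

/-- Exponents and the geometric mean of the area density of spheres: its logarithm, minus
`T ∑ χ i`, has a limit `δ ≥ -∑ log (2 χ i)`, with equality exactly for the locally symmetric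
metrics. -/
def GeometricMean (g : RMetric (EV n) M) (χ : Fin (n - 1) → ℝ) : Prop :=
  ∃ δ : ℝ, Tendsto (fun T : ℝ => (∫ v, Real.log (Real.sqrt (jvol g (n - 1) T v))
      ∂(liou (stdB n) g)) - T * ∑ i, χ i) atTop (𝓝 δ) ∧
    -∑ i, Real.log (2 * χ i) ≤ δ ∧ (LocSymmetric g ↔ δ = -∑ i, Real.log (2 * χ i))

end

end Vale.Agent.P207F
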