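import Vale.Agent.P207.H248.JDefs

/-!
# P207: volumes spread by Jacobi fields, areas of spheres, exponents

`IsJac g γ J` (`Vale.Agent.P255.FinalDefs`) : `J` is a Jacobi field along `γ`.
-/

open scoped Manifold ContDiff ENNReal
open Bundle MeasureTheory Set Filter Topology

noncomputable section

namespace Vale.Agent.P207F

open Vale.Agent.P255 (RMetric innerAt coefIn Gam Riem IsGeo IsJac fieldIn)

section

variable {E : Type} [NormedAddCommGroup E] [NormedSpace ℝ E] {M : Type} [TopologicalSpace M]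
  [ChartedSpace E M] [IsManifold 𝓘(ℝ, E) ∞ M]

/-- `J i`, `i < k`, are Jacobi fields along the curve `γ` with `J i (0) = 0` whose derivatives
`(J i)'(0) = w i` are orthonormal and orthogonal to `γ'(0)`. -/
def Spread (g : RMetric E M) (γ : ℝ → M) {k : ℕ}
    (J : Fin k → ∀ t, TangentSpace 𝓘(ℝ, E) (γ t)) : Prop :=
  (∀ i, IsJac g γ (J i) ∧ J i 0 = 0) ∧
    ∃ w : Fin k → TangentSpace 𝓘(ℝ, E) (γ 0),
      (∀ i j, innerAt g (γ 0) (w i) (w j) = if i = j then 1 else 0) ∧
      (∀ i, innerAt g (γ 0) (w i) (velo γ 0) = 0) ∧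
      ∀ i, deriv (fieldIn γ (J i) (γ 0)) 0 =
        mfderiv 𝓘(ℝ, E) 𝓘(ℝ, E) (chartAt E (γ 0)) (γ 0) (w i)

/-- The greatest square of the `k`-volume at time `T` of `k` fields as in `Spread`: the greatest
square of the factor by which the exponential map multiplies `k`-volumes orthogonal to `γ`,
`T ^ (2 k)` times (for `k = n - 1` the square of the area density of the sphere of radius `T` at
`γ T`). -/
def jvolAlong (g : RMetric E M) (γ : ℝ → M) (k : ℕ) (T : ℝ) : ℝ :=
  sSup {x | ∃ J : Fin k → ∀ t, TangentSpace 𝓘(ℝ, E) (γ t), Spread g γ J ∧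
    x = (Matrix.of fun i j : Fin k => innerAt g (γ T) (J i T) (J j T)).det}

/-- The same for the geodesic of the unit vector `v`. -/
def jvol (g : RMetric E M) (k : ℕ) (T : ℝ) (v : UT g) : ℝ :=
  jvolAlong g (fun t => (geoFlow g t v).pt) k T

/-- The average over `M` of the area of the sphere of radius `T` of the universal cover, divided by
the area of the unit sphere of `ℝⁿ`. -/
def meanArea [MeasureSpace E] [MeasurableSpace M] {n : ℕ} (b : Fin n → E) (g : RMetric E M)
    (T : ℝ) : ℝ :=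
  ∫ v, Real.sqrt (jvol g (n - 1) T v) ∂(liou b g)

/-- `χ` is the nonincreasing family of the exponents of the Liouville measure: the exponential
growth rate of the `k`-volumes is `χ 0 + ⋯ + χ (k - 1)`. -/
def IsLyap [MeasureSpace E] [MeasurableSpace M] {n : ℕ} (b : Fin n → E) (g : RMetric E M)
    (χ : Fin (n - 1) → ℝ) : Prop :=
  Antitone χ ∧ ∀ k ≤ n - 1,
    Tendsto (fun T : ℝ => (∫ v, Real.log (jvol g k T v) ∂(liou b g)) / (2 * T)) atTop
      (𝓝 (∑ i : Fin (n - 1), if (i : ℕ) < k then χ i else 0))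

/-- Areas of spheres and exponents: `A(T)` is `meanArea`, `Λ = ∑ χ i`. -/
def SphereArea [MeasureSpace E] [MeasurableSpace M] {n : ℕ} (b : Fin n → E) (g : RMetric E M)
    (χ : Fin (n - 1) → ℝ) : Prop :=
  (∀ c < ∏ i, (2 * χ i)⁻¹, ∀ᶠ T in atTop, c * Real.exp (T * ∑ i, χ i) ≤ meanArea b g T) ∧
  (LocSymmetric g → Tendsto (fun T : ℝ => Real.exp (-(T * ∑ i, χ i)) * meanArea b g T) atTop
    (𝓝 (∏ i, (2 * χ i)⁻¹))) ∧
  (¬ LocSymmetric g → ∃ c, ∏ i, (2 * χ i)⁻¹ < c ∧
    ∀ᶠ T in atTop, c * Real.exp (T * ∑ i, χ i) ≤ meanArea b g T)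

/-- Local symmetry by the equality of the entropies and the growth of the areas of spheres. -/
def AreaCriterion [MeasureSpace E] [MeasurableSpace M] {n : ℕ} (b : Fin n → E) (g : RMetric E M)
    (χ : Fin (n - 1) → ℝ) : Prop :=
  LocSymmetric g ↔ hLiou b g = hTop g ∧ ∀ c, ∏ i, (2 * χ i)⁻¹ < c →
    ∃ᶠ T in atTop, meanArea b g T < c * Real.exp (T * (hTop g).toReal)

end

end Vale.Agent.P207F
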