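import Vale.Agent.P207.H118.EDefs

/-!
# P207: averages along each geodesic
-/

open scoped Manifold ContDiff ENNReal
open Bundle MeasureTheory Set Filter

noncomputable section

namespace Vale.Agent.P207F

open Vale.Agent.P255 (RMetric innerAt coefIn Gam Riem IsGeo)

section

variable {n : ℕ} {M : Type} [TopologicalSpace M] [ChartedSpace (EV n) M]
  [IsManifold 𝓘(ℝ, EV n) ∞ M]

/-- The least value of `√(-K(v,w))` over the unit vectors `w` orthogonal to the unit vector `v`
(components in the chart at the base point). -/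
def leastCurv (g : RMetric (EV n) M) (p : UT g) : ℝ :=
  sInf {x | ∃ w : EV n, coefIn g p.pt (chartAt (EV n) p.pt p.pt) w w = 1 ∧
    coefIn g p.pt (chartAt (EV n) p.pt p.pt) w p.vec = 0 ∧
    x = Real.sqrt (-(coefIn g p.pt (chartAt (EV n) p.pt p.pt)
      (Riem (coefIn g p.pt) (chartAt (EV n) p.pt p.pt) w p.vec p.vec) w))}

/-- The greatest value of `-K(v,w)` over the unit vectors `w` orthogonal to the unit vector `v`
(components in the chart at the base point). -/
def topCurv (g : RMetric (EV n) M) (p : UT g) : ℝ :=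
  sSup {x | ∃ w : EV n, coefIn g p.pt (chartAt (EV n) p.pt p.pt) w w = 1 ∧
    coefIn g p.pt (chartAt (EV n) p.pt p.pt) w p.vec = 0 ∧
    x = -(coefIn g p.pt (chartAt (EV n) p.pt p.pt)
      (Riem (coefIn g p.pt) (chartAt (EV n) p.pt p.pt) w p.vec p.vec) w)}

/-- Each unit vector `v` satisfies one of the following: the average of `-Ric` over `[0,T]` along
the geodesic of `v` is at most `c` for arbitrarily large `T`, where `(5 n - 6) c < 5 h_top²`; or the
average of `leastCurv` is at least `c > 0` for arbitrarily large `T`, where `h_L < n c`; or the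
average of `topCurv` is at most `c²` for arbitrarily large `T`, where `c > 0` and
`(2 n - 3) c < 2 h_top`. -/
def AvgPinched [MeasurableSpace M] (g : RMetric (EV n) M) : Prop :=
  ∀ v : UT g,
    (∃ c : ℝ, ENNReal.ofReal ((5 * n - 6) * c) < 5 * hTop g ^ 2 ∧
      ∃ᶠ T : ℝ in atTop, ∫ t in (0 : ℝ)..T, -ricUT g (geoFlow g t v) ≤ c * T) ∨
    (∃ c : ℝ, 0 < c ∧ hLiou (stdB n) g < ENNReal.ofReal (n * c) ∧
      ∃ᶠ T : ℝ in atTop, c * T ≤ ∫ t in (0 : ℝ)..T, leastCurv g (geoFlow g t v)) ∨
    (∃ c : ℝ, 0 < c ∧ ENNReal.ofReal ((2 * n - 3) * c) < 2 * hTop g ∧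
      ∃ᶠ T : ℝ in atTop, ∫ t in (0 : ℝ)..T, topCurv g (geoFlow g t v) ≤ c ^ 2 * T)

end

end Vale.Agent.P207F
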