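import Vale.Agent.P207.SPH.PubR

/-!
# P207: extremal curvature along single geodesic rays
-/

open scoped Manifold ContDiff ENNReal
open Bundle MeasureTheory Set Filter

noncomputable section

namespace Vale.Agent.P207F

open Vale.Agent.P255 (RMetric innerAt coefIn Gam Riem IsGeo)

section

variable {n : ℕ} {M : Type} [TopologicalSpace M] [ChartedSpace (EV n) M]
  [IsManifold 𝓘(ℝ, EV n) ∞ M]

/-- `K ≤ -a²` on `M`, and on one ray the mean of `-Ric` is at most `(n - 1) a²` for arbitrarily
large times. -/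
def RayLow (g : RMetric (EV n) M) : Prop :=
  ∃ a : ℝ, 0 < a ∧ SecLE g (-a ^ 2) ∧ RicRay g ((n - 1) * a ^ 2)

/-- `K ≥ -b²` on `M`, and on one ray the mean of `sqrtCurv` is at least `(n - 1) b` for arbitrarily
large times. -/
def RayHigh (g : RMetric (EV n) M) : Prop :=
  ∃ b : ℝ, 0 < b ∧ SecGE g (-b ^ 2) ∧ SqrtRay g ((n - 1) * b)

end

end Vale.Agent.P207F
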