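import Vale.Agent.P207.SPH.H453.PubQ

/-!
# P207: curvature conditions along single geodesic rays
-/

open scoped Manifold ContDiff ENNReal
open Bundle MeasureTheory Set Filter

noncomputable section

namespace Vale.Agent.P207F

open Vale.Agent.P255 (RMetric innerAt coefIn Gam Riem IsGeo)

section

variable {n : ℕ} {M : Type} [TopologicalSpace M] [ChartedSpace (EV n) M]
  [IsManifold 𝓘(ℝ, EV n) ∞ M]

/-- Along some geodesic ray the mean of `-Ric` over `[0, T]` is at most `c` for arbitrarily large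
`T`. -/
def RicRay (g : RMetric (EV n) M) (c : ℝ) : Prop :=
  ∃ v : UT g, ∃ᶠ T : ℝ in atTop, ∫ t in (0 : ℝ)..T, -ricUT g (geoFlow g t v) ≤ c * T

/-- Along some geodesic ray the mean of `sqrtCurv` over `[0, T]` is at least `d` for arbitrarily
large `T`. -/
def SqrtRay (g : RMetric (EV n) M) (d : ℝ) : Prop :=
  ∃ v : UT g, ∃ᶠ T : ℝ in atTop, d * T ≤ ∫ t in (0 : ℝ)..T, sqrtCurv g (geoFlow g t v)

/-- Two rays, or the manifold instead of one of them or both, with `(n - 1) c < d²` for a bound `c`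
of the mean of `-Ric` from above and a bound `d > 0` of the mean of `sqrtCurv` from below. -/
def RayGap [MeasurableSpace M] (g : RMetric (EV n) M) : Prop :=
  ∃ c d : ℝ, 0 < d ∧ (n - 1) * c < d ^ 2 ∧
    (RicRay g c ∨ -∫ v, ricUT g v ∂(liou (stdB n) g) ≤ c) ∧
    (SqrtRay g d ∨ d ≤ ∫ v, sqrtCurv g v ∂(liou (stdB n) g))

/-- `K ≤ -a²` on `M`, and on one ray the mean of `-Ric` is less than `n² a² / (n - 1)`. -/
def RayAbove (g : RMetric (EV n) M) : Prop :=
  ∃ a c : ℝ, 0 < a ∧ SecLE g (-a ^ 2) ∧ RicRay g c ∧ (n - 1) * c < n ^ 2 * a ^ 2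

/-- `K ≥ -b²` on `M`, and on one ray the mean of `sqrtCurv` is more than `(2 n - 3) b / 2`. -/
def RayBelow (g : RMetric (EV n) M) : Prop :=
  ∃ b d : ℝ, 0 < b ∧ SecGE g (-b ^ 2) ∧ SqrtRay g d ∧ (2 * n - 3) * b < 2 * d

/-- `Ric ≥ -r` on `M`, and on one ray `(5 n - 6) r < 5 d²` for a bound `d > 0` of the mean of
`sqrtCurv` from below. -/
def RayRicci (g : RMetric (EV n) M) : Prop :=
  ∃ r d : ℝ, 0 < d ∧ (∀ v, -r ≤ ricUT g v) ∧ SqrtRay g d ∧ (5 * n - 6) * r < 5 * d ^ 2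

end

end Vale.Agent.P207F
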