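import Vale.Agent.P207.H118.EDefs

/-!
# P207: curvature conditions along single rays and along each geodesic
-/

open scoped Manifold ContDiff ENNReal
open Bundle MeasureTheory Set Filter

noncomputable section

namespace Vale.Agent.P207F

open Vale.Agent.P255 (RMetric innerAt coefIn Gam Riem IsGeo)

section

variable {E : Type} [NormedAddCommGroup E] [NormedSpace ℝ E] {M : Type} [TopologicalSpace M]
  [ChartedSpace E M] [IsManifold 𝓘(ℝ, E) ∞ M]

/-- `-K(v,w)` times `|w|²` for the unit vector `v` and `w` orthogonal to `v` (components in the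
chart at the base point). -/
def negSec (g : RMetric E M) (p : UT g) (w : E) : ℝ :=
  -(coefIn g p.pt (chartAt E p.pt p.pt) (Riem (coefIn g p.pt) (chartAt E p.pt p.pt) w p.vec p.vec) w)

/-- `w` is a unit vector orthogonal to the unit vector `v`. -/
def IsPerp (g : RMetric E M) (p : UT g) (w : E) : Prop :=
  coefIn g p.pt (chartAt E p.pt p.pt) w w = 1 ∧ coefIn g p.pt (chartAt E p.pt p.pt) w p.vec = 0

/-- The least value of `√(-K(v,w))` over the unit vectors `w` orthogonal to `v`. -/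
def lowRoot (g : RMetric E M) (p : UT g) : ℝ :=
  sInf {x | ∃ w : E, IsPerp g p w ∧ x = Real.sqrt (negSec g p w)}

/-- The greatest value of `-K(v,w)` over the unit vectors `w` orthogonal to `v`. -/
def topSec (g : RMetric E M) (p : UT g) : ℝ :=
  sSup {x | ∃ w : E, IsPerp g p w ∧ x = negSec g p w}

/-- The least value of `∑ √(-K(v,w i))` over the orthonormal families `w` of `k` vectors orthogonal
to `v` (`k = n - 1`: the orthonormal bases of the orthogonal complement). -/
def sumRoot (k : ℕ) (g : RMetric E M) (p : UT g) : ℝ :=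
  sInf {x | ∃ w : Fin k → E,
    (∀ i j, coefIn g p.pt (chartAt E p.pt p.pt) (w i) (w j) = if i = j then 1 else 0) ∧
    (∀ i, coefIn g p.pt (chartAt E p.pt p.pt) (w i) p.vec = 0) ∧
    x = ∑ i, Real.sqrt (negSec g p (w i))}

/-- The mean of `F` over `[0, T]` along the geodesic of `v` is at most `c` for arbitrarily
large `T`. -/
def MeanLE (g : RMetric E M) (F : UT g → ℝ) (v : UT g) (c : ℝ) : Prop :=
  ∃ᶠ T : ℝ in atTop, ∫ t in (0 : ℝ)..T, F (geoFlow g t v) ≤ c * T

/-- The mean of `F` over `[0, T]` along the geodesic of `v` is at least `c` for arbitrarily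
large `T`. -/
def MeanGE (g : RMetric E M) (F : UT g → ℝ) (v : UT g) (c : ℝ) : Prop :=
  ∃ᶠ T : ℝ in atTop, c * T ≤ ∫ t in (0 : ℝ)..T, F (geoFlow g t v)

/-- `K ≤ -a²` on `M`, and the mean of `F = -Ric` along one ray is less than `n² a² / (n - 1)`. -/
def OneAbove (n : ℕ) (g : RMetric E M) (F : UT g → ℝ) : Prop :=
  ∃ a c : ℝ, 0 < a ∧ SecLE g (-a ^ 2) ∧ (∃ v, MeanLE g F v c) ∧ (n - 1) * c < n ^ 2 * a ^ 2

/-- `K ≥ -b²` on `M`, and the mean of `sumRoot` along one ray is more than `(2 n - 3) b / 2`. -/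
def OneBelow (n : ℕ) (g : RMetric E M) : Prop :=
  ∃ b d : ℝ, 0 < b ∧ SecGE g (-b ^ 2) ∧ (∃ v, MeanGE g (sumRoot (n - 1) g) v d) ∧
    (2 * n - 3) * b < 2 * d

/-- `F = -Ric ≤ r` on `M`, and `(5 n - 6) r < 5 d²` for a bound `d > 0` from below of the mean of
`sumRoot` along one ray. -/
def OneRicci (n : ℕ) (g : RMetric E M) (F : UT g → ℝ) : Prop :=
  ∃ r d : ℝ, 0 < d ∧ (∀ v, F v ≤ r) ∧ (∃ v, MeanGE g (sumRoot (n - 1) g) v d) ∧
    (5 * n - 6) * r < 5 * d ^ 2

/-- Each unit vector `v` satisfies, for some `c` : `F = -Ric` has mean at most `c`, where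
`(5 n - 6) c < 5 h_top²`; or `c > 0` and `lowRoot` has mean at least `c`, where `h_L < n c`; or
`c > 0` and `topSec` has mean at most `c²`, where `(2 n - 3) c < 2 h_top`. -/
def EachPinched [MeasureSpace E] [MeasurableSpace M] {n : ℕ} (b : Fin n → E) (g : RMetric E M)
    (F : UT g → ℝ) : Prop :=
  ∀ v : UT g, ∃ c : ℝ,
    (ENNReal.ofReal ((5 * n - 6) * c) < 5 * hTop g ^ 2 ∧ MeanLE g F v c) ∨
    (0 < c ∧ hLiou b g < ENNReal.ofReal (n * c) ∧ MeanGE g (lowRoot g) v c) ∨
    (0 < c ∧ ENNReal.ofReal ((2 * n - 3) * c) < 2 * hTop g ∧ MeanLE g (topSec g) v (c ^ 2))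

end

end Vale.Agent.P207F
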